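import Vale.Agent.P272.HY.Blocks
import Vale.Agent.P272.S2B.SubMean

/-!
# P272 / S3D: the Laplacian of a function along a holomorphic curve
-/

open scoped Manifold ContDiff ComplexOrder Topology
open Complex Set Filter Metric

set_option linter.all false

noncomputable section

namespace Vale.Agent.P272.S3D

open Vale.Agent.P272.K Vale.Agent.P272.BR Vale.Agent.P272.HY

variable {n : ℕ}

lemma hq_eq (M : Matrix (Fin n) (Fin n) ℂ) (v : Cm n) : HY.hq M v = S2B.hq M v := by
  unfold HY.hq S2B.hq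
  congr 1
  unfold quad
  rw [dotProduct]
  refine Finset.sum_congr rfl fun i _ => ?_
  rw [Matrix.mulVec, dotProduct, Finset.mul_sum]
  refine Finset.sum_congr rfl fun j _ => ?_
  simp only [cj, Pi.star_apply, Complex.star_def]
  ring

lemma hq_cHess {q : Cm n → ℝ} {p : Cm n} (hq2 : ContDiffAt ℝ 2 q p) (ξ : Cm n) :
    HY.hq (cHess q p) ξ = (fderiv ℝ (fderiv ℝ q) p ξ ξ +
      fderiv ℝ (fderiv ℝ q) p (I • ξ) (I • ξ)) / 4 := by
  rw [hq_eq, S2B.hq_cHess hq2]

/-- the Laplacian of `q` along a holomorphic curve -/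
lemma ddb_comp_hol {q : Cm n → ℝ} {c : ℂ → Cm n} {z : ℂ} (hq2 : ContDiffAt ℝ 2 q (c z))
    (hc : AnalyticAt ℂ c z) :
    GJ.ddb (fun w => q (c w)) z = HY.hq (cHess q (c z)) (deriv c z) := by
  have hcr : HasFDerivAt c ((ContinuousLinearMap.toSpanSingleton ℂ (deriv c z)).restrictScalars ℝ)
      z := (hc.differentiableAt.hasDerivAt.hasFDerivAt).restrictScalars ℝ
  have hc' : AnalyticAt ℂ (deriv c) z := hc.deriv
  have hcr' : HasFDerivAt (deriv c)
      ((ContinuousLinearMap.toSpanSingleton ℂ (deriv (deriv c) z)).restrictScalars ℝ) z :=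
    (hc'.differentiableAt.hasDerivAt.hasFDerivAt).restrictScalars ℝ
  have hDq : HasFDerivAt (fderiv ℝ q) (fderiv ℝ (fderiv ℝ q) (c z)) (c z) :=
    ((hq2.fderiv_right (m := 1) (by norm_num)).differentiableAt (by norm_num)).hasFDerivAt
  have hev : ∀ v : ℂ, (fun w => fderiv ℝ (fun w => q (c w)) w v) =ᶠ[𝓝 z]
      fun w => fderiv ℝ q (c w) (v • deriv c w) := by
    intro v
    have h1 : ∀ᶠ w in 𝓝 z, ContDiffAt ℝ 2 q (c w) :=
      hc.continuousAt.eventually (hq2.eventually (by simp))
    filter_upwards [h1, hc.eventually_analyticAt] with w hw hcw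
    have h2 : HasFDerivAt c
        ((ContinuousLinearMap.toSpanSingleton ℂ (deriv c w)).restrictScalars ℝ) w :=
      (hcw.differentiableAt.hasDerivAt.hasFDerivAt).restrictScalars ℝ
    have h3 := (hw.differentiableAt (by norm_num)).hasFDerivAt.comp w h2
    have h4 : fderiv ℝ (fun w => q (c w)) w = (fderiv ℝ q (c w)).comp
        ((ContinuousLinearMap.toSpanSingleton ℂ (deriv c w)).restrictScalars ℝ) := h3.fderiv
    rw [h4]
    simp
  have key : ∀ v : ℂ, fderiv ℝ (fun w => fderiv ℝ (fun w => q (c w)) w v) z v =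
      fderiv ℝ (fderiv ℝ q) (c z) (v • deriv c z) (v • deriv c z) +
        fderiv ℝ q (c z) (v • v • deriv (deriv c) z) := by
    intro v
    rw [(hev v).fderiv_eq]
    have h1 : HasFDerivAt (fun w => fderiv ℝ q (c w)) ((fderiv ℝ (fderiv ℝ q) (c z)).comp
      ((ContinuousLinearMap.toSpanSingleton ℂ (deriv c z)).restrictScalars ℝ)) z := hDq.comp z hcr
    have h2 : HasFDerivAt (fun w => v • deriv c w)
      (v • (ContinuousLinearMap.toSpanSingleton ℂ (deriv (deriv c) z)).restrictScalars ℝ) z :=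
      hcr'.const_smul v
    have h3 := h1.clm_apply h2
    rw [h3.fderiv]
    simp
    ring
  have hI : fderiv ℝ q (c z) (I • I • deriv (deriv c) z) =
      -fderiv ℝ q (c z) (deriv (deriv c) z) := by
    rw [smul_smul, I_mul_I, neg_one_smul, map_neg]
  rw [GJ.ddb, key 1, key I, hq_cHess hq2, hI]
  simp only [one_smul]
  ring

end Vale.Agent.P272.S3D
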