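import Vale.Agent.P272.HY.Blocks
import Vale.Agent.P272.BR.Spd

/-!
# P272 / S3D: the families of discs `Γ s z = F z (s q(z))` from a holomorphic tube
-/

open scoped Manifold ContDiff ComplexOrder Topology
open Complex Set Filter Metric

set_option linter.all false

noncomputable section

namespace Vale.Agent.P272.S3D

open Vale.Agent.P272.K Vale.Agent.P272.BR Vale.Agent.P272.HY

variable {n : ℕ} {X : Type} [TopologicalSpace X] [ChartedSpace (Cm n) X]
  {f : ℂ → X} {δ ε : ℝ} {F : ℂ → Cm n → X} {q : ℂ → Cm n} {s z : ℂ} {e : Chart n X}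
  {h : Chart n X → Cm n → Matrix (Fin n) (Fin n) ℂ}

/-- the family of discs -/
def Gam (F : ℂ → Cm n → X) (q : ℂ → Cm n) (s z : ℂ) : X := F z (s • q z)

/-- `ε` is small enough for `q` and the tube -/
def Small (δ ε : ℝ) (q : ℂ → Cm n) : Prop :=
  0 < ε ∧ ∀ s ∈ ball (0 : ℂ) ε, ∀ z ∈ closedBall (0 : ℂ) 1, s • q z ∈ ball (0 : Cm n) δ

lemma exists_small (hδ : 0 < δ) (hqc : ContinuousOn q (closedBall 0 1)) : ∃ ε, Small δ ε q := by
  obtain ⟨C, hC⟩ := (isCompact_closedBall (0 : ℂ) 1).exists_bound_of_continuousOn hqc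
  have hC0 : 0 ≤ C := (norm_nonneg _).trans (hC 0 (by simp))
  refine ⟨δ / (C + 1), by positivity, fun s hs z hz => ?_⟩
  rw [mem_ball, dist_zero_right] at hs ⊢
  rw [norm_smul]
  calc ‖s‖ * ‖q z‖ ≤ ‖s‖ * (C + 1) := by
        have := hC z hz
        gcongr
        linarith
    _ < δ / (C + 1) * (C + 1) := by gcongr
    _ = δ := by field_simp

lemma Small.mono {ε' : ℝ} (hs : Small δ ε q) (h0 : 0 < ε') (h1 : ε' ≤ ε) : Small δ ε' q :=
  ⟨h0, fun s hs' z hz => hs.2 s (ball_subset_ball h1 hs') z hz⟩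

lemma Small.zero_mem (hS : Small δ ε q) : (0 : ℂ) ∈ ball (0 : ℂ) ε := mem_ball_self hS.1

section
variable (hF : HolTube f δ F) (hS : Small δ ε q)
include hF hS

lemma gam_zero (hz : z ∈ closedBall (0 : ℂ) 1) : Gam F q 0 z = f z := by
  rw [Gam, zero_smul, hF.zero z hz]

lemma gam_cont (hqc : ContinuousOn q (closedBall 0 1)) :
    ContinuousOn (fun p : ℂ × ℂ => Gam F q p.1 p.2) (ball 0 ε ×ˢ closedBall 0 1) := by
  refine hF.cont.comp (f := fun p : ℂ × ℂ => (p.2, p.1 • q p.2)) ?_ ?_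
  · refine continuousOn_snd.prodMk (continuousOn_fst.smul (hqc.comp continuousOn_snd ?_))
    exact fun p hp => hp.2
  · exact fun p hp => ⟨hp.2, hS.2 _ hp.1 _ hp.2⟩

lemma gam_contAt (hqc : ContinuousOn q (closedBall 0 1)) (hs : s ∈ ball (0 : ℂ) ε)
    (hz : z ∈ ball (0 : ℂ) 1) : ContinuousAt (fun p : ℂ × ℂ => Gam F q p.1 p.2) (s, z) := by
  refine (gam_cont hF hS hqc).continuousAt ?_
  exact prod_mem_nhds (isOpen_ball.mem_nhds hs)
    (mem_of_superset (isOpen_ball.mem_nhds hz) ball_subset_closedBall)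

lemma gam_contAt_fst (hqc : ContinuousOn q (closedBall 0 1)) (hs : s ∈ ball (0 : ℂ) ε)
    (hz : z ∈ closedBall (0 : ℂ) 1) : ContinuousAt (fun s' => Gam F q s' z) s := by
  have h1 : ContinuousOn (fun s' => Gam F q s' z) (ball 0 ε) :=
    (gam_cont hF hS hqc).comp (f := fun s' : ℂ => (s', z))
      (continuousOn_id.prodMk continuousOn_const) fun s' hs' => ⟨hs', hz⟩
  exact h1.continuousAt (isOpen_ball.mem_nhds hs)

/-- joint holomorphy -/
lemma gam_diff (hqc : Differentiable ℂ q) (hs : s ∈ ball (0 : ℂ) ε) (hz : z ∈ ball (0 : ℂ) 1)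
    (he : At e (Gam F q s z)) :
    DifferentiableAt ℂ (fun p : ℂ × ℂ => e (Gam F q p.1 p.2)) (s, z) := by
  have h1 := hF.holo z hz (s • q z) (hS.2 s hs z (ball_subset_closedBall hz)) e he
  have h2 : DifferentiableAt ℂ (fun p : ℂ × ℂ => (p.2, p.1 • q p.2)) (s, z) := by
    refine differentiableAt_snd.prodMk ?_
    exact differentiableAt_fst.smul (DifferentiableAt.comp (g := q) (f := fun p : ℂ × ℂ => p.2) (s, z) (hqc z)
      differentiableAt_snd)
  exact DifferentiableAt.comp (g := fun p : ℂ × Cm n => e (F p.1 p.2)) (s, z) h1 h2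

/-- holomorphy in the parameter, up to the boundary -/
lemma gam_holo_fst (hqc : ContinuousOn q (closedBall 0 1)) (hs : s ∈ ball (0 : ℂ) ε)
    (hz : z ∈ closedBall (0 : ℂ) 1) : HolAt n (fun s' => Gam F q s' z) s := by
  refine ⟨gam_contAt_fst hF hS hqc hs hz, fun e he => ?_⟩
  have h1 := hF.holz z hz (s • q z) (hS.2 s hs z hz) e he
  have h2 : DifferentiableAt ℂ (fun s' : ℂ => s' • q z) s := by fun_prop
  exact DifferentiableAt.comp (g := fun ζ : Cm n => e (F z ζ)) s h1 h2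

/-- each member of the family is a holomorphic disc -/
lemma gam_holD (hqc : Differentiable ℂ q) (hs : s ∈ ball (0 : ℂ) ε) : HolD n (Gam F q s) := by
  intro z hz
  have hc := gam_contAt hF hS hqc.continuous.continuousOn hs hz
  refine ⟨ContinuousAt.comp (g := fun p : ℂ × ℂ => Gam F q p.1 p.2) (f := fun z' : ℂ => (s, z'))
    hc (by fun_prop), fun e he => ?_⟩
  exact DifferentiableAt.comp (g := fun p : ℂ × ℂ => e (Gam F q p.1 p.2))
    (f := fun z' : ℂ => (s, z')) z (gam_diff hF hS hqc hs hz he) (by fun_prop)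

end

section
variable [IsManifold 𝓘(ℂ, Cm n) ω X]
variable (hF : HolTube f δ F) (hS : Small δ ε q)
include hF hS

/-- locally uniform convergence of the parameter curves -/
lemma gam_conv (hqc : ContinuousOn q (closedBall 0 1)) (hz : z ∈ closedBall (0 : ℂ) 1)
    {u : ℕ → ℂ} (hu : ∀ k, u k ∈ closedBall (0 : ℂ) 1) (hlim : Tendsto u atTop (𝓝 z)) :
    ConvOn n (fun k s' => Gam F q s' (u k)) (fun s' => Gam F q s' z) (ball 0 ε) := by
  intro s hs e he
  -- a neighbourhood on which everything is in the chart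
  have hcont := gam_cont hF hS hqc
  have h1 : (fun p : ℂ × ℂ => Gam F q p.1 p.2) ⁻¹' e.source ∈
      𝓝[ball 0 ε ×ˢ closedBall 0 1] (s, z) :=
    (hcont (s, z) ⟨hs, hz⟩) (e.open_source.mem_nhds he.2)
  rw [mem_nhdsWithin] at h1
  obtain ⟨V, hVo, hV, hVs⟩ := h1
  obtain ⟨ρ1, hρ1, hb1⟩ := Metric.isOpen_iff.1 hVo (s, z) hV
  obtain ⟨ρ2, hρ2, hb2⟩ := Metric.isOpen_iff.1 isOpen_ball s hs
  set ρ := min (ρ1 / 2) (ρ2 / 2) with hρ
  have hρ0 : 0 < ρ := lt_min (by linarith) (by linarith)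
  have hr1 : ρ ≤ ρ1 / 2 := min_le_left _ _
  have hr2 : ρ ≤ ρ2 / 2 := min_le_right _ _
  set K : Set (ℂ × ℂ) := closedBall s ρ ×ˢ (closedBall 0 1 ∩ closedBall z ρ) with hK
  have hKc : IsCompact K := (isCompact_closedBall s ρ).prod
    ((isCompact_closedBall (0 : ℂ) 1).inter (isCompact_closedBall z ρ))
  have hKs : K ⊆ ball 0 ε ×ˢ closedBall 0 1 := by
    rintro ⟨a, b⟩ ⟨ha, hb, _⟩
    refine ⟨hb2 ?_, hb⟩
    rw [mem_closedBall] at ha
    rw [mem_ball]; linarith
  have hKe : ∀ p ∈ K, Gam F q p.1 p.2 ∈ e.source := by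
    rintro ⟨a, b⟩ hp
    refine hVs ⟨hb1 ?_, hKs hp⟩
    obtain ⟨ha, _, hb⟩ := hp
    rw [mem_closedBall] at ha hb
    rw [mem_ball, Prod.dist_eq]
    refine max_lt ?_ ?_
    · show dist a s < ρ1; linarith
    · show dist b z < ρ1; linarith
  have hec : ContinuousOn (fun p : ℂ × ℂ => e (Gam F q p.1 p.2)) K :=
    e.continuousOn.comp (hcont.mono hKs) hKe
  have huc := hKc.uniformContinuousOn_of_continuous hec
  have hue : ∀ᶠ k in atTop, u k ∈ closedBall (0 : ℂ) 1 ∩ closedBall z ρ := by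
    filter_upwards [hlim.eventually (closedBall_mem_nhds z hρ0)] with k hk using ⟨hu k, hk⟩
  refine ⟨ρ, hρ0, ?_, ?_, ?_, ?_⟩
  · intro a ha
    refine hb2 ?_
    rw [mem_ball] at ha ⊢; linarith
  · intro a ha
    exact ⟨he.1, hKe (a, z) ⟨ball_subset_closedBall ha, hz, mem_closedBall_self hρ0.le⟩⟩
  · filter_upwards [hue] with k hk a ha
    have hm : (a, u k) ∈ K := ⟨ball_subset_closedBall ha, hk⟩
    exact ⟨⟨he.1, hKe _ hm⟩, gam_holo_fst hF hS hqc (hKs hm).1 (hKs hm).2⟩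
  · rw [Metric.tendstoUniformlyOn_iff]
    intro η hη
    rw [Metric.uniformContinuousOn_iff] at huc
    obtain ⟨d, hd, hdd⟩ := huc η hη
    filter_upwards [hue, hlim.eventually (ball_mem_nhds z hd)] with k hk hk' a ha
    refine hdd (a, z) ⟨ball_subset_closedBall ha, hz, mem_closedBall_self hρ0.le⟩ (a, u k)
      ⟨ball_subset_closedBall ha, hk⟩ ?_
    rw [Prod.dist_eq]
    refine max_lt (by simpa using hd) ?_
    rw [dist_comm]; exact hk'

/-- continuity of the speed in the parameter direction, up to the boundary -/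
lemma gam_spd_cont (hh : IsHermitian h) (hqc : ContinuousOn q (closedBall 0 1)) :
    ContinuousOn (fun p : ℂ × ℂ => BR.spd h (fun s' => Gam F q s' p.2) p.1)
      (ball 0 ε ×ˢ closedBall 0 1) := by
  rintro ⟨s, z⟩ ⟨hs, hz⟩
  rw [ContinuousWithinAt]
  refine tendsto_of_seq_tendsto fun u hu => ?_
  obtain ⟨hu1, hu2⟩ := tendsto_nhdsWithin_iff.1 hu
  have ha : Tendsto (fun k => (u k).1) atTop (𝓝 s) := (continuous_fst.tendsto (s, z)).comp hu1
  have hb : Tendsto (fun k => (u k).2) atTop (𝓝 z) := (continuous_snd.tendsto (s, z)).comp hu1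
  obtain ⟨N, hN⟩ := eventually_atTop.1 hu2
  have ha' : Tendsto (fun k => (u (k + N)).1) atTop (𝓝 s) := ha.comp (tendsto_add_atTop_nat N)
  have hb' : Tendsto (fun k => (u (k + N)).2) atTop (𝓝 z) := hb.comp (tendsto_add_atTop_nat N)
  have hc := gam_conv hF hS hqc hz (u := fun k => (u (k + N)).2)
    (fun k => (hN (k + N) (by omega)).2) hb'
  have hg : HolOn n (fun s' => Gam F q s' z) (ball 0 ε) := fun s' hs' =>
    gam_holo_fst hF hS hqc hs' hz
  have h1 := hc.spd_along hh hg hs ha'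
  exact (tendsto_add_atTop_iff_nat N).1 h1

/-- the velocity of the parameter curve at `s = 0` -/
lemma gam_vel (hz : z ∈ closedBall (0 : ℂ) 1) (he : At e (f z)) :
    vel (fun s' => Gam F q s' z) e 0 = (tj F e z 0).mulVec (q z) := by
  have he' : At e (F z 0) := by rwa [hF.zero z hz]
  have h1 := (hF.holz z hz 0 (mem_ball_self hF.pos) e he').hasFDerivAt
  have h2 : HasDerivAt (fun s' : ℂ => s' • q z) (q z) 0 := by
    simpa using (hasDerivAt_id (0 : ℂ)).smul_const (q z)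
  have h3 : HasDerivAt (fun s' : ℂ => e (F z (s' • q z)))
      (fderiv ℂ (fun ζ' : Cm n => e (F z ζ')) 0 (q z)) 0 := by
    refine HasFDerivAt.comp_hasDerivAt_of_eq (l := fun ζ' : Cm n => e (F z ζ')) 0 h1 h2 ?_
    simp
  have h4 : vel (fun s' => Gam F q s' z) e 0 = fderiv ℂ (fun ζ' : Cm n => e (F z ζ')) 0 (q z) :=
    h3.deriv
  rw [h4]
  funext i
  rw [Matrix.mulVec, dotProduct]
  conv_lhs => rw [← Finset.univ_sum_single (q z)]
  rw [map_sum, Finset.sum_apply]
  refine Finset.sum_congr rfl fun j _ => ?_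
  have h5 : (Pi.single j (q z j) : Cm n) = q z j • Pi.single j (1 : ℂ) := by
    rw [← Pi.single_smul, smul_eq_mul, mul_one]
  rw [h5, map_smul, Pi.smul_apply, smul_eq_mul, mul_comm]
  rfl

/-- the speed of the parameter curve at `s = 0` -/
lemma gam_spd_zero (hh : IsHermitian h) (hqc : ContinuousOn q (closedBall 0 1))
    (hz : z ∈ closedBall (0 : ℂ) 1) :
    BR.spd h (fun s' => Gam F q s' z) 0 = hq (pbM h F z) (q z) := by
  have hat : At (chartAt (Cm n) (F z 0) : Chart n X) (F z 0) := at_chartAt _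
  have hat' : At (chartAt (Cm n) (F z 0) : Chart n X) (Gam F q 0 z) := by
    rw [Gam, zero_smul]; exact hat
  have hat2 : At (chartAt (Cm n) (F z 0) : Chart n X) (f z) := by
    rw [← hF.zero z hz]; exact hat
  rw [spd_eq hh (gam_holo_fst hF hS hqc hS.zero_mem hz) hat', gam_vel hF hS hz hat2, Gam, zero_smul,
    HY.hq, pbM, quad_change]

end

end Vale.Agent.P272.S3D
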